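import Crest.Agent.N336.Defs
import Crest.Agent.N336.Q.Cond
import Crest.Agent.R150.LR1_375

/-!
# Row 336: definitions for items 1, 2, 3, 8 (helper87)

* `Gap H Ω E Δ`, the time average `Av`, balls and grouped terms `hv` of a `Sys`
* frozen statements `GFStmt`, `LocStmt`, `UhlStmt`, `FFStmt` (item 1), `FlatStmt` (item 2),
  `SubStmt` (item 3)
-/

set_option autoImplicit false
set_option linter.unusedSectionVars false

open Matrix Finset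
open scoped ComplexOrder MatrixOrder Matrix.Norms.L2Operator InnerProductSpace

namespace Crest.Agent.N336.A

open Crest.Agent.N336.Q Crest.MathPhysics.LatticeSpin
open Crest.Agent.R150.LR375 (tau br)

section abstract

variable {n : Type} [Fintype n] [DecidableEq n]

/-- gapped ground vector -/
structure Gap (H : Matrix n n ℂ) (Ω : Q.Vec n) (E Δ : ℝ) : Prop where
  herm : H.IsHermitian
  norm : ‖Ω‖ = 1
  eig : ap H Ω = (E : ℂ) • Ω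
  gap : ∀ ψ : Q.Vec n, Δ * (‖ψ‖ ^ 2 - ‖⟪Ω, ψ⟫_ℂ‖ ^ 2) ≤ (⟪ψ, ap H ψ⟫_ℂ).re - E * ‖ψ‖ ^ 2

/-- time average over `[0, T]` of the Heisenberg evolution -/
noncomputable def Av (H : Matrix n n ℂ) (T : ℝ) (X : Matrix n n ℂ) : Matrix n n ℂ :=
  ((T⁻¹ : ℝ) : ℂ) • ∫ s in (0 : ℝ)..T, tau H s X

end abstract

/-- filter lemma: the iterated time average projects onto the ground state -/
def GFStmt : Prop :=
  ∀ (n : Type) [Fintype n] [DecidableEq n] (H : Matrix n n ℂ) (Ω : Q.Vec n) (E Δ T : ℝ),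
    Gap H Ω E Δ → 0 < Δ → 0 < T → ∀ (X : Matrix n n ℂ) (N : ℕ),
      ⟪Ω, ap ((Av H T)^[N] X) Ω⟫_ℂ = ⟪Ω, ap X Ω⟫_ℂ ∧
      ‖ap ((Av H T)^[N] X) Ω - ⟪Ω, ap X Ω⟫_ℂ • Ω‖ ≤
        (2 / (T * Δ)) ^ N * ‖ap X Ω - ⟪Ω, ap X Ω⟫_ℂ • Ω‖

/-- locality lemma: the filter of `O` may be computed with the terms in `T₀` only, if the other
terms commute with everything inside or lie (those in `V`) at hop distance `≥ w` from `O` -/
def LocStmt : Prop :=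
  ∀ (n : Type) [Fintype n] [DecidableEq n] (K : Type) [Fintype K] [DecidableEq K]
    (h : K → Matrix n n ℂ) (g : ℝ) (nb : K → Finset K) (m : ℕ) (dd : K → ℕ) (O : Matrix n n ℂ)
    (T₀ V : Finset K) (w N : ℕ) (T : ℝ),
    (∀ j, (h j).IsHermitian) → (∀ j, ‖h j‖ ≤ g) → 0 < g → 1 ≤ m → (∀ j, (nb j).card ≤ m) →
    (∀ j k, k ∉ nb j → h k * h j = h j * h k) → (∀ j, ∀ k ∈ nb j, dd j ≤ dd k + 1) →
    (∀ j, 0 < dd j → h j * O = O * h j) →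
    (∀ j, j ∉ T₀ → j ∉ V → h j * O = O * h j ∧ ∀ k ∈ T₀, h j * h k = h k * h j) →
    (∀ j ∈ V, w + 1 ≤ dd j) → 0 < T → Real.exp 2 * (2 * m * g * (N * T)) ≤ w →
    ‖(Av (∑ j, h j) T)^[N] O - (Av (∑ j ∈ T₀, h j) T)^[N] O‖ ≤
      V.card * ‖O‖ * ((w + 1 : ℝ) ^ 2 * Real.exp (-w))

/-- Uhlmann + Powers-Størmer in site form -/
def UhlStmt : Prop :=
  ∀ (ι : Type) [Fintype ι] [DecidableEq ι] (d : ι → Type) [∀ x, Fintype (d x)]
    [∀ x, DecidableEq (d x)] [∀ x, Nonempty (d x)] (X : Finset ι) (ψ φ : Q.Vec (Cfg d)) (δ : ℝ),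
    (∀ O : Q.Op d, Supp X O → O.IsHermitian → ‖O‖ ≤ 1 →
      (⟪ψ, ap O ψ⟫_ℂ).re - (⟪φ, ap O φ⟫_ℂ).re ≤ δ) →
    ∃ U : Q.Op d, Supp Xᶜ U ∧ Uᴴ * U = 1 ∧ U * Uᴴ = 1 ∧ ‖ap U ψ - φ‖ ^ 2 ≤ δ

section sys

variable {q R : ℕ} {J Δ : ℝ} {Λ : Type} [Fintype Λ] [DecidableEq Λ]

open Classical in
/-- graph ball -/
noncomputable def ball (s : Sys q R J Δ Λ) (v : Λ) (r : ℕ) : Finset Λ :=
  univ.filter fun y => s.G.edist v y ≤ r

/-- the terms grouped by sites -/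
noncomputable def hv (s : Sys q R J Δ Λ) (v : Λ) : Q.Op (fun _ : Λ => Fin q) :=
  ∑ X ∈ univ.filter (fun X : Finset Λ => v ∈ X), ((X.card : ℂ))⁻¹ • s.h X

/-- the Hamiltonian -/
noncomputable def ham (s : Sys q R J Δ Λ) : Q.Op (fun _ : Λ => Fin q) := ∑ X, s.h X

/-- norm bound for the grouped terms -/
noncomputable def gJ (R : ℕ) (J : ℝ) : ℝ := 2 ^ ((2 * R + 1) ^ 2) * J

/-- `r`-neighbourhood of a set -/
noncomputable def nbhd (s : Sys q R J Δ Λ) (Z : Finset Λ) (r : ℕ) : Finset Λ :=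
  Z.biUnion fun v => ball s v r

/-- sites whose position lies in the square `[x, x + w) × [y, y + w)` -/
def box (s : Sys q R J Δ Λ) (x y w : ℤ) : Finset Λ :=
  univ.filter fun a => x ≤ (s.pos a).1 ∧ (s.pos a).1 < x + w ∧ y ≤ (s.pos a).2 ∧ (s.pos a).2 < y + w

end sys

/-- item 1: replacement by positive local terms with almost zero ground energy; the near terms
`v ∈ N` live on `ball v r`, the far term on the `r`-neighbourhood of `Nᶜ` -/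
def FFStmt : Prop :=
  ∀ (q R : ℕ) (J Δ : ℝ), 1 ≤ q → 0 < J → 0 < Δ → ∃ c C : ℝ, 0 < c ∧ 0 < C ∧
    ∀ (Λ : Type) [Fintype Λ] [DecidableEq Λ] (s : Sys q R J Δ Λ) (N : Finset Λ) (r : ℕ) (ε : ℝ),
      C * (N.card + 1) * Real.exp (-(c * r)) ≤ ε → ε ≤ 1 →
      ∃ (g : Λ → Q.Op (fun _ : Λ => Fin q)) (gf : Q.Op (fun _ : Λ => Fin q))
        (Ω' : Q.Vec (Cfg fun _ : Λ => Fin q)) (E' : ℝ),
        (∀ v, (g v).PosSemidef ∧ Supp (ball s v r) (g v) ∧ ‖g v‖ ≤ C) ∧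
        gf.PosSemidef ∧ Supp (nbhd s Nᶜ r) gf ∧
        Gap (∑ v ∈ N, g v + gf) Ω' E' (Δ / 2) ∧ 0 ≤ E' ∧ E' ≤ ε ^ 2 ∧ ‖Ω' - s.Ω‖ ≤ ε


/-- item 3: sub-volume law for `U ∩ square`, if no edge leaves `U` near the square -/
def SubStmt : Prop :=
  ∀ (q R : ℕ) (J Δ : ℝ), 1 ≤ q → 0 < J → 0 < Δ → ∃ η C : ℝ, 0 < η ∧ η ≤ 1 ∧ 0 < C ∧
    ∀ (Λ : Type) [Fintype Λ] [DecidableEq Λ] (s : Sys q R J Δ Λ) (U : Finset Λ) (x y : ℤ) (L : ℕ),
      (∀ a b, s.G.Adj a b → a ∈ U → a ∈ box s (x - R) (y - R) (L + 2 * R) → b ∈ U) →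
      S s.Ω (U ∩ box s x y L) ≤ C * (L : ℝ) ^ (2 - η)

end Crest.Agent.N336.A
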