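import Crest.Agent.N336.A.Defs
import Crest.Agent.N336.A.Geo

-- ▼ part N336/A/FF1
section

/-!
# Row 336, item 1, abstract part (helper37)

* `Av_iter_mem` : the iterated time average lies in every closed convex set containing the orbit
* `AvL`, `Av_iter_sub`, `Av_iter_sum`, `Av_iter_herm`, `norm_Av_iter_le`, `Av_iter_self`,
  `norm_br_Av_iter`, `norm_br_tau_le_of_deriv`
* `abs_lower`, `abs_upper` : one term `|A'|`;  `gap_pert` : the perturbed gap
-/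

set_option autoImplicit false
set_option linter.unusedSectionVars false

open Matrix Finset
open scoped ComplexOrder MatrixOrder Matrix.Norms.L2Operator InnerProductSpace

namespace Crest.Agent.N336.A.FF

open Crest.Agent.N336.Q
open Crest.Agent.R150.LR375

variable {n : Type} [Fintype n] [DecidableEq n]

/-! ### time averages -/

lemma hasDerivAt_tau (H X : Matrix n n ℂ) (s : ℝ) :
    HasDerivAt (fun s => tau H s X) (tau H s (Complex.I • br H X)) s := by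
  have h := ((U_deriv H s).mul_const X).mul (U_deriv_neg H s)
  refine h.congr_deriv ?_
  have h2 : U H (-s) * H = H * U H (-s) := U_comm rfl _
  simp only [tau, br, mul_smul_comm, smul_mul_assoc, h2, mul_neg, Matrix.mul_assoc,
    sub_eq_add_neg, smul_add, smul_neg, Matrix.mul_add, Matrix.add_mul, neg_mul]

lemma continuous_tau (H X : Matrix n n ℂ) : Continuous fun s => tau H s X :=
  continuous_iff_continuousAt.2 fun s => (hasDerivAt_tau H X s).continuousAt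

lemma tau_tau (H X : Matrix n n ℂ) (s u : ℝ) : tau H s (tau H u X) = tau H (s + u) X := by
  simp only [tau]
  rw [neg_add_rev, U_add, U_add]
  simp only [Matrix.mul_assoc]

/-- the evolution as a linear map -/
noncomputable def tauL (H : Matrix n n ℂ) (s : ℝ) : Matrix n n ℂ →L[ℂ] Matrix n n ℂ :=
  ContinuousLinearMap.mulLeftRight ℂ _ (U H s) (U H (-s))

lemma tauL_apply (H X : Matrix n n ℂ) (s : ℝ) : tauL H s X = tau H s X := rfl

lemma tau_smul (H X : Matrix n n ℂ) (s : ℝ) (c : ℂ) : tau H s (c • X) = c • tau H s X :=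
  map_smul (tauL H s) c X

lemma tau_self (H : Matrix n n ℂ) (s : ℝ) : tau H s H = H := by
  rw [tau, U_comm rfl, Matrix.mul_assoc, U_mul_neg, Matrix.mul_one]

lemma tau_herm {H X : Matrix n n ℂ} (hH : H.IsHermitian) (hX : X.IsHermitian) (s : ℝ) :
    (tau H s X).IsHermitian := by
  have h := U_star hH.isSelfAdjoint s
  rw [tau, ← h]
  exact isHermitian_mul_mul_conjTranspose _ hX

lemma tau_Av (H X : Matrix n n ℂ) (T s : ℝ) :
    tau H s (Av H T X) = ((T⁻¹ : ℝ) : ℂ) • ∫ u in (0 : ℝ)..T, tau H (s + u) X := by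
  rw [Av, tau_smul, ← tauL_apply, ← (tauL H s).intervalIntegral_comp_comm
    ((continuous_tau H X).intervalIntegrable _ _)]
  simp only [tauL_apply, tau_tau]

lemma avg_mem {S : Set (Matrix n n ℂ)} (hS : Convex ℝ S) (hc : IsClosed S)
    {f : ℝ → Matrix n n ℂ} (hf : Continuous f) {T : ℝ} (hT : 0 < T)
    (h : ∀ u, 0 ≤ u → u ≤ T → f u ∈ S) : ((T⁻¹ : ℝ) : ℂ) • ∫ u in (0 : ℝ)..T, f u ∈ S := by
  have h1 := interval_average_eq f 0 T
  rw [sub_zero] at h1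
  rw [Complex.coe_smul, ← h1, Set.uIoc_of_le hT.le]
  refine hS.set_average_mem hc (by simpa using hT) (by simp) ?_
    (hf.integrableOn_Icc.mono_set Set.Ioc_subset_Icc_self)
  exact (MeasureTheory.ae_restrict_mem measurableSet_Ioc).mono fun u hu => h u hu.1.le hu.2

/-- the iterated average lies in every closed convex set containing the orbit -/
theorem Av_iter_mem (H : Matrix n n ℂ) {T : ℝ} (hT : 0 < T) {S : Set (Matrix n n ℂ)}
    (hS : Convex ℝ S) (hc : IsClosed S) (N : ℕ) : ∀ X : Matrix n n ℂ,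
    (∀ s, 0 ≤ s → s ≤ N * T → tau H s X ∈ S) → (Av H T)^[N] X ∈ S := by
  induction N with
  | zero => intro X h; simpa [tau_zero] using h 0 le_rfl (by simp)
  | succ N ih =>
    intro X h
    rw [Function.iterate_succ_apply]
    refine ih _ fun s h0 hs => ?_
    rw [tau_Av]
    refine avg_mem (f := fun u => tau H (s + u) X) hS hc
      ((continuous_tau H X).comp (continuous_const.add continuous_id)) hT
      fun u hu0 hu => h (s + u) (by linarith) ?_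
    push_cast
    linarith

/-- the average as a linear map -/
noncomputable def AvL (H : Matrix n n ℂ) (T : ℝ) : Matrix n n ℂ →ₗ[ℂ] Matrix n n ℂ where
  toFun := Av H T
  map_add' X Y := by
    simp only [Av, ← smul_add]
    rw [← intervalIntegral.integral_add ((continuous_tau H X).intervalIntegrable _ _)
      ((continuous_tau H Y).intervalIntegrable _ _)]
    simp only [← tauL_apply, map_add]
  map_smul' c X := by
    simp only [Av, tau_smul, intervalIntegral.integral_smul, RingHom.id_apply]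
    rw [smul_comm]

lemma Av_iter_eq (H : Matrix n n ℂ) (T : ℝ) (N : ℕ) (X : Matrix n n ℂ) :
    (Av H T)^[N] X = (AvL H T ^ N) X := (Module.End.pow_apply (AvL H T) N X).symm

lemma Av_iter_sub (H : Matrix n n ℂ) (T : ℝ) (N : ℕ) (X Y : Matrix n n ℂ) :
    (Av H T)^[N] (X - Y) = (Av H T)^[N] X - (Av H T)^[N] Y := by
  simp only [Av_iter_eq, map_sub]

lemma Av_iter_sum {K : Type*} (H : Matrix n n ℂ) (T : ℝ) (N : ℕ) (I : Finset K)
    (X : K → Matrix n n ℂ) : (Av H T)^[N] (∑ k ∈ I, X k) = ∑ k ∈ I, (Av H T)^[N] (X k) := by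
  simp only [Av_iter_eq, map_sum]

lemma Av_iter_self (H : Matrix n n ℂ) {T : ℝ} (hT : 0 < T) (N : ℕ) : (Av H T)^[N] H = H :=
  Av_iter_mem H hT (convex_singleton H) isClosed_singleton N H fun s _ _ => tau_self H s

lemma norm_Av_iter_le {H : Matrix n n ℂ} (hH : H.IsHermitian) {T : ℝ} (hT : 0 < T) (N : ℕ)
    (X : Matrix n n ℂ) : ‖(Av H T)^[N] X‖ ≤ ‖X‖ :=
  mem_closedBall_zero_iff.1 (Av_iter_mem H hT (convex_closedBall 0 ‖X‖) Metric.isClosed_closedBall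
    N X fun s _ _ => mem_closedBall_zero_iff.2 (norm_tau hH.isSelfAdjoint s X).le)

lemma Av_iter_herm {H X : Matrix n n ℂ} (hH : H.IsHermitian) (hX : X.IsHermitian) {T : ℝ}
    (hT : 0 < T) (N : ℕ) : ((Av H T)^[N] X).IsHermitian := by
  refine Av_iter_mem H hT (S := {Y | Y.IsHermitian}) (fun a ha b hb x y _ _ _ => ?_)
    (isClosed_eq continuous_id.matrix_conjTranspose continuous_id) N X
    fun s _ _ => tau_herm hH hX s
  exact (ha.smul (.all x)).add (hb.smul (.all y))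

/-- the commutator with a fixed matrix -/
noncomputable def brL (B : Matrix n n ℂ) : Matrix n n ℂ →L[ℂ] Matrix n n ℂ :=
  (ContinuousLinearMap.mul ℂ _).flip B - ContinuousLinearMap.mul ℂ _ B

lemma brL_apply (B X : Matrix n n ℂ) : brL B X = br X B := rfl

lemma norm_br_Av_iter (H : Matrix n n ℂ) {T : ℝ} (hT : 0 < T) (N : ℕ) {X B : Matrix n n ℂ}
    {k : ℝ} (h : ∀ s, 0 ≤ s → s ≤ N * T → ‖br (tau H s X) B‖ ≤ k) :
    ‖br ((Av H T)^[N] X) B‖ ≤ k :=
  mem_closedBall_zero_iff.1 (Av_iter_mem H hT (S := brL B ⁻¹' Metric.closedBall 0 k)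
    ((convex_closedBall 0 k).linear_preimage ((brL B).toLinearMap.restrictScalars ℝ))
    (Metric.isClosed_closedBall.preimage (brL B).continuous) N X
    fun s h0 hs => mem_closedBall_zero_iff.2 (h s h0 hs))

/-- integrate the derivative of `s ↦ [tau s X, B]` -/
lemma norm_br_tau_le_of_deriv {H X B : Matrix n n ℂ} (h0 : X * B = B * X) {t k : ℝ}
    (h : ∀ s, 0 ≤ s → s ≤ t → ‖br (tau H s (br H X)) B‖ ≤ k) {s : ℝ} (hs0 : 0 ≤ s) (hs : s ≤ t) :
    ‖br (tau H s X) B‖ ≤ k * s := by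
  have h1 := norm_image_sub_le_of_norm_deriv_le_segment' (a := 0) (b := t) (C := k)
    (f := fun s => brL B (tau H s X)) (f' := fun s => brL B (tau H s (Complex.I • br H X)))
    (fun x _ => (((brL B).restrictScalars ℝ).hasFDerivAt.comp_hasDerivAt x
      (hasDerivAt_tau H X x)).hasDerivWithinAt)
    (fun x hx => by
      rw [tau_smul, map_smul, norm_smul, Complex.norm_I, one_mul]
      exact h x hx.1 hx.2.le) s ⟨hs0, hs⟩
  simpa only [brL_apply, tau_zero, br_eq_zero h0, sub_zero] using h1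

/-! ### one term -/

lemma abs_lower {A A' : Matrix n n ℂ} (hA' : A'.IsHermitian) {δ : ℝ} (h : ‖A - A'‖ ≤ δ)
    (ψ : Q.Vec n) : (⟪ψ, ap A ψ⟫_ℂ).re - δ * ‖ψ‖ ^ 2 ≤ (⟪ψ, ap (fr abs A') ψ⟫_ℂ).re := by
  have h1 : (⟪ψ, ap A' ψ⟫_ℂ).re ≤ (⟪ψ, ap (fr abs A') ψ⟫_ℂ).re := by
    conv_lhs => rw [← fr_id hA']
    exact re_inner_ap_mono (fr_le_fr fun i => le_abs_self _) ψ
  have h2 := (Complex.re_le_norm _).trans (norm_inner_ap_le (A - A') ψ ψ)
  rw [ap_sub, inner_sub_right, Complex.sub_re] at h2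
  have h3 : ‖A - A'‖ * ‖ψ‖ * ‖ψ‖ ≤ δ * ‖ψ‖ * ‖ψ‖ := by gcongr
  nlinarith

lemma norm_ap_abs {A : Matrix n n ℂ} (hA : A.IsHermitian) (ψ : Q.Vec n) :
    ‖ap (fr abs A) ψ‖ = ‖ap A ψ‖ := by
  refine (sq_eq_sq₀ (norm_nonneg _) (norm_nonneg _)).1 ?_
  conv_rhs => rw [← fc_id hA]
  simp only [norm_ap_fc_sq, Complex.norm_real, Real.norm_eq_abs, abs_abs]

lemma abs_upper {A A' : Matrix n n ℂ} (hA' : A'.IsHermitian) {δ : ℝ} (h : ‖A - A'‖ ≤ δ)
    {Ω : Q.Vec n} (hΩ : ‖Ω‖ = 1) (h' : ‖ap A Ω‖ ≤ δ) :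
    (⟪Ω, ap (fr abs A') Ω⟫_ℂ).re ≤ 2 * δ := by
  have h1 := (Complex.re_le_norm _).trans (norm_inner_le_norm (𝕜 := ℂ) Ω (ap (fr abs A') Ω))
  rw [hΩ, one_mul, norm_ap_abs hA'] at h1
  have h2 : ap A' Ω = ap A Ω - ap (A - A') Ω := by rw [ap_sub, sub_sub_cancel]
  have h3 := norm_ap_le (A - A') Ω
  rw [hΩ, mul_one] at h3
  have h4 := norm_sub_le (ap A Ω) (ap (A - A') Ω)
  rw [← h2] at h4
  linarith

lemma norm_abs_le {A : Matrix n n ℂ} (hA : A.IsHermitian) : ‖fr abs A‖ ≤ ‖A‖ :=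
  norm_fc_le (norm_nonneg _) fun i => by
    simpa only [Complex.norm_real, Real.norm_eq_abs, abs_abs] using abs_ev_le hA i

lemma abs_posSemidef (A : Matrix n n ℂ) : (fr abs A).PosSemidef :=
  fr_posSemidef fun _ => abs_nonneg _

/-! ### the perturbed gap -/

theorem gap_pert {G : Matrix n n ℂ} (hG : G.PosSemidef) {Ω : Q.Vec n} (hΩ : ‖Ω‖ = 1) {Δ δ : ℝ}
    (hΔ : 0 < Δ) (hδ : 18 * δ ≤ Δ)
    (h1 : ∀ ψ : Q.Vec n,
      Δ * (‖ψ‖ ^ 2 - ‖⟪Ω, ψ⟫_ℂ‖ ^ 2) - δ * ‖ψ‖ ^ 2 ≤ (⟪ψ, ap G ψ⟫_ℂ).re)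
    (h2 : (⟪Ω, ap G Ω⟫_ℂ).re ≤ 2 * δ) :
    ∃ (Ω' : Q.Vec n) (E' : ℝ), Gap G Ω' E' (Δ / 2) ∧ 0 ≤ E' ∧ E' ≤ 2 * δ ∧
      Δ * ‖Ω' - Ω‖ ^ 2 ≤ 6 * δ := by
  have hne : (univ : Finset n).Nonempty := by
    rcases isEmpty_or_nonempty n with h | h
    · rw [Subsingleton.elim Ω 0, norm_zero] at hΩ; exact absurd hΩ zero_ne_one
    · exact univ_nonempty
  obtain ⟨i₀, -, hmin⟩ := exists_min_image univ (ev G) hne
  have hq : ∀ ψ : Q.Vec n, (⟪ψ, ap G ψ⟫_ℂ).re = ∑ i, ev G i * ‖⟪evec G i, ψ⟫_ℂ‖ ^ 2 := by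
    intro ψ
    conv_lhs => rw [← fr_id hG.1]
    exact re_inner_fr _ _ _
  have hE : ev G i₀ ≤ 2 * δ := by
    refine le_trans ?_ h2
    rw [hq, ← mul_one (ev G i₀), ← one_pow 2, ← hΩ, ← sum_sq_inner_evec G, mul_sum]
    exact sum_le_sum fun i _ => mul_le_mul_of_nonneg_right (hmin i (mem_univ i)) (sq_nonneg _)
  obtain ⟨z, hz1, hz⟩ := Complex.exists_norm_eq_mul_self ⟪Ω, evec G i₀⟫_ℂ
  set a := ‖⟪Ω, evec G i₀⟫_ℂ‖ with ha
  have ha1 : a ≤ 1 := by
    have := norm_inner_le_norm (𝕜 := ℂ) Ω (evec G i₀)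
    rwa [hΩ, norm_evec, one_mul] at this
  have ha0 : 0 ≤ a := norm_nonneg _
  have h3 : Δ * (1 - a ^ 2) ≤ 3 * δ := by
    have := h1 (evec G i₀)
    rw [← ev_eq_re_inner hG.1, norm_evec] at this
    linarith
  have hn' : ‖z • evec G i₀‖ = 1 := by rw [norm_smul, hz1, norm_evec, one_mul]
  have h4 : Δ * ‖z • evec G i₀ - Ω‖ ^ 2 ≤ 6 * δ := by
    rw [norm_sub_rev, @norm_sub_sq ℂ, hΩ, hn', inner_smul_right, ← hz]
    have : Δ * (1 - a) ≤ Δ * (1 - a ^ 2) := by gcongr; nlinarith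
    simp only [RCLike.re_to_complex, Complex.ofReal_re]
    linarith
  refine ⟨z • evec G i₀, ev G i₀, ⟨hG.1, hn', ?_, fun ψ => ?_⟩, ev_nonneg hG i₀, hE, h4⟩
  · rw [map_smul, ap_evec hG.1, smul_comm]
  · have h5 : ∀ i, i ≠ i₀ → Δ / 2 ≤ ev G i - ev G i₀ := by
      intro i hi
      have h6 := h1 (evec G i)
      rw [← ev_eq_re_inner hG.1, norm_evec] at h6
      have h7 : ⟪Ω, evec G i⟫_ℂ = -⟪z • evec G i₀ - Ω, evec G i⟫_ℂ := by
        rw [inner_sub_left, inner_smul_left, inner_evec, if_neg hi.symm]; simp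
      have h8 : ‖⟪Ω, evec G i⟫_ℂ‖ ≤ ‖z • evec G i₀ - Ω‖ := by
        have := norm_inner_le_norm (𝕜 := ℂ) (z • evec G i₀ - Ω) (evec G i)
        rwa [norm_evec, mul_one, ← norm_neg, ← h7] at this
      have h9 : Δ * ‖⟪Ω, evec G i⟫_ℂ‖ ^ 2 ≤ Δ * ‖z • evec G i₀ - Ω‖ ^ 2 := by gcongr
      linarith
    have h10 : ‖⟪z • evec G i₀, ψ⟫_ℂ‖ = ‖⟪evec G i₀, ψ⟫_ℂ‖ := by
      rw [inner_smul_left, norm_mul, Complex.norm_conj, hz1, one_mul]
    rw [h10, hq, ← sum_sq_inner_evec G ψ, mul_sum, ← sum_sub_distrib,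
      ← add_sum_erase _ _ (mem_univ i₀), add_sub_cancel_left, mul_sum,
      ← add_sum_erase _ _ (mem_univ i₀), sub_self, zero_add]
    refine sum_le_sum fun i hi => ?_
    rw [← sub_mul]
    exact mul_le_mul_of_nonneg_right (h5 i (ne_of_mem_erase hi)) (sq_nonneg _)

end Crest.Agent.N336.A.FF
end

-- ▼ part N336/A/FF2

/-!
# Row 336, item 1: replacement by positive local terms (helper37)

`FF.ff_of : GFStmt → FFStmt`
-/

set_option autoImplicit false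
set_option linter.unusedSectionVars false

open Matrix Finset
open scoped ComplexOrder MatrixOrder Matrix.Norms.L2Operator InnerProductSpace

namespace Crest.Agent.N336.A.FF

open Crest.Agent.N336.Q
open Crest.Agent.R150.LR375

section abstract

variable {n : Type} [Fintype n] [DecidableEq n]

lemma br_sum_right {K : Type*} (I : Finset K) (X : Matrix n n ℂ) (f : K → Matrix n n ℂ) :
    br X (∑ i ∈ I, f i) = ∑ i ∈ I, br X (f i) := by
  unfold br
  rw [Finset.sum_mul, Finset.mul_sum, ← Finset.sum_sub_distrib]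

lemma comm_sub_smul_one (X B : Matrix n n ℂ) (c : ℂ) :
    (X - c • (1 : Matrix n n ℂ)) * B - B * (X - c • (1 : Matrix n n ℂ)) = br X B := by
  simp only [br, Matrix.sub_mul, Matrix.mul_sub, Matrix.smul_mul, Matrix.mul_smul,
    Matrix.one_mul, Matrix.mul_one]
  abel

lemma herm_sub_smul_one {X : Matrix n n ℂ} (hX : X.IsHermitian) (c : ℝ) :
    (X - (c : ℂ) • (1 : Matrix n n ℂ)).IsHermitian :=
  hX.sub (isHermitian_one.smul (by simp [IsSelfAdjoint]))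

lemma re_inner_eq {X : Matrix n n ℂ} (hX : X.IsHermitian) (Ω : Q.Vec n) :
    (((⟪Ω, ap X Ω⟫_ℂ).re : ℝ) : ℂ) = ⟪Ω, ap X Ω⟫_ℂ :=
  Complex.ext (by simp) (by simp [im_inner_ap hX])

/-- assembling the positive terms -/
theorem assemble {K : Type*} (N : Finset K) {H : Matrix n n ℂ} {Ω : Q.Vec n} {E Δ : ℝ}
    (hg : Gap H Ω E Δ) (hΔ : 0 < Δ) (A A' : K → Matrix n n ℂ) (Af' : Matrix n n ℂ) {δ : ℝ}
    (hA' : ∀ v, (A' v).IsHermitian) (hAf' : Af'.IsHermitian)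
    (e1 : ∀ v ∈ N, ‖A v - A' v‖ ≤ δ) (e2 : ∀ v ∈ N, ‖ap (A v) Ω‖ ≤ δ)
    (e3 : ‖(H - ∑ v ∈ N, A v - (E : ℂ) • (1 : Matrix n n ℂ)) - Af'‖ ≤ N.card * δ)
    (hδ : 36 * (N.card * δ) ≤ Δ) :
    ∃ (Ω' : Q.Vec n) (E' : ℝ), Gap (∑ v ∈ N, fr abs (A' v) + fr abs Af') Ω' E' (Δ / 2) ∧
      0 ≤ E' ∧ E' ≤ 4 * (N.card * δ) ∧ Δ * ‖Ω' - Ω‖ ^ 2 ≤ 12 * (N.card * δ) := by
  have hre : ∀ (f : K → Matrix n n ℂ) (ψ : Q.Vec n),
      (⟪ψ, ap (∑ v ∈ N, f v) ψ⟫_ℂ).re = ∑ v ∈ N, (⟪ψ, ap (f v) ψ⟫_ℂ).re := by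
    intro f ψ; rw [ap_sum, inner_sum, Complex.re_sum]
  obtain ⟨Ω', E', h1, h2, h3, h4⟩ := gap_pert (G := ∑ v ∈ N, fr abs (A' v) + fr abs Af')
    ((posSemidef_sum N fun v _ => abs_posSemidef _).add (abs_posSemidef _)) hg.norm hΔ
    (δ := 2 * (N.card * δ)) (by linarith) (fun ψ => by
      have a1 := hg.gap ψ
      have a2 := abs_lower hAf' e3 ψ
      have a3 := sum_le_sum fun v hv => abs_lower (hA' v) (e1 v hv) ψ
      rw [sum_sub_distrib, sum_const, nsmul_eq_mul] at a3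
      rw [ap_sub, ap_sub, inner_sub_right, inner_sub_right, Complex.sub_re, Complex.sub_re, hre,
        ap_smul, ap_one, inner_smul_right, inner_self_eq_norm_sq_to_K] at a2
      have a4 : ((E : ℂ) * ((‖ψ‖ : ℝ) : ℂ) ^ 2).re = E * ‖ψ‖ ^ 2 := by norm_cast
      rw [ap_add, inner_add_right, Complex.add_re, hre]
      erw [a4] at a2
      linarith) (by
      have a2 := abs_upper hAf' e3 hg.norm (by
        rw [ap_sub, ap_sub, ap_smul, ap_one, hg.eig, sub_sub_cancel_left, norm_neg, ap_sum]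
        refine (norm_sum_le _ _).trans ?_
        simpa using sum_le_card_nsmul _ _ _ e2)
      have a3 := sum_le_sum fun v hv => abs_upper (hA' v) (e1 v hv) hg.norm (e2 v hv)
      rw [sum_const, nsmul_eq_mul] at a3
      rw [ap_add, inner_add_right, Complex.add_re, hre]
      linarith)
  exact ⟨Ω', E', h1, h2, by linarith, by linarith⟩

end abstract

variable {q R : ℕ} {J Δ : ℝ} {Λ : Type} [Fintype Λ] [DecidableEq Λ]

/-- the Lieb-Robinson bound as a hypothesis -/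
def LR (s : Sys q R J Δ Λ) (c C : ℝ) : Prop :=
  ∀ (v : Λ) (a r : ℕ) (X B : Q.Op fun _ : Λ => Fin q) (Z : Finset Λ) (t : ℝ),
    Supp (ball s v a) X → a ≤ 3 * R → Supp Z B → Disjoint (ball s v r) Z → |t| ≤ c * r →
    ‖br (tau (ham s) t X) B‖ ≤ C * ‖X‖ * ‖B‖ * Real.exp (-(c * r))

lemma ham_split (s : Sys q R J Δ Λ) (N : Finset Λ) :
    ham s = ∑ v ∈ N, hv s v + ∑ k ∈ Nᶜ, hv s k := by
  rw [sum_add_sum_compl, sum_hv]

lemma br_ham_far (s : Sys q R J Δ Λ) (N : Finset Λ) : br (ham s) (∑ k ∈ Nᶜ, hv s k) =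
    ∑ v ∈ N, ∑ k ∈ Nᶜ ∩ ball s v (2 * R), br (hv s v) (hv s k) := by
  rw [ham_split s N, br_add_left, br_self, add_zero, br_sum_left]
  refine sum_congr rfl fun v _ => ?_
  rw [br_sum_right]
  refine (sum_subset inter_subset_left fun k hk hk' => br_eq_zero (hv_comm s ?_).symm).symm
  exact fun h => hk' (mem_inter.2 ⟨hk, h⟩)

/-- the far term almost commutes with everything away from `Nᶜ` -/
lemma far_br {s : Sys q R J Δ Λ} {c C : ℝ} (hlr : LR s c C) (hC : 0 ≤ C) (N : Finset Λ) {r : ℕ}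
    (hr : R ≤ r) {B : Q.Op fun _ : Λ => Fin q} (hB : Supp (nbhd s Nᶜ r)ᶜ B) (hB1 : ‖B‖ ≤ 1)
    {t : ℝ} (h0 : 0 ≤ t) (ht : t ≤ c * r) :
    ‖br (tau (ham s) t (∑ k ∈ Nᶜ, hv s k)) B‖ ≤
      N.card * (4 * (4 * R + 1) ^ 2 * gJ R J ^ 2 * C * Real.exp (-(c / 2 * r))) := by
  have hg := gJ_nonneg R (J_nonneg s)
  have hd : ∀ k ∈ Nᶜ, Disjoint (ball s k r) (nbhd s Nᶜ r)ᶜ := fun k hk =>
    disjoint_compl_right.mono_left (ball_sub_nbhd hk r)
  have h1 := norm_br_tau_le_of_deriv (H := ham s) (X := ∑ k ∈ Nᶜ, hv s k) (B := B) (t := c * r)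
    (k := N.card * ((4 * R + 1) ^ 2 * (C * (2 * gJ R J * gJ R J) * Real.exp (-(c * r))))) (by
      rw [Finset.sum_mul, Finset.mul_sum]
      exact sum_congr rfl fun k hk =>
        hv_comm_of_supp s hB ((hd k hk).mono_left (ball_mono s k hr))) (fun u hu0 hu => by
      rw [br_ham_far, tau_sum, br_sum_left]
      refine (norm_sum_le _ _).trans ?_
      rw [← nsmul_eq_mul]
      refine sum_le_card_nsmul _ _ _ fun v _ => ?_
      rw [tau_sum, br_sum_left]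
      refine (norm_sum_le _ _).trans ?_
      refine (sum_le_card_nsmul _ _ (C * (2 * gJ R J * gJ R J) * Real.exp (-(c * r)))
        fun k hk => ?_).trans ?_
      · obtain ⟨hk1, hk2⟩ := mem_inter.1 hk
        have s1 : Supp (ball s k (3 * R)) (hv s v) :=
          (supp_hv s v).mono (ball_sub_ball (ball_symm hk2) (by omega))
        have s2 : Supp (ball s k (3 * R)) (hv s k) :=
          (supp_hv s k).mono (ball_mono s k (by omega))
        refine (hlr k (3 * R) r _ B _ u ((s1.mul s2).sub (s2.mul s1)) le_rfl hB (hd k hk1)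
          (by rwa [abs_of_nonneg hu0])).trans ?_
        have h2 : ‖hv s v * hv s k - hv s k * hv s v‖ ≤ 2 * gJ R J * gJ R J := by
          refine (norm_br_le (hv s v) (hv s k)).trans ?_
          have := norm_hv_le s v
          have := norm_hv_le s k
          gcongr
        calc _ ≤ C * (2 * gJ R J * gJ R J) * 1 * Real.exp (-(c * r)) := by gcongr
          _ = _ := by ring
      · rw [nsmul_eq_mul]
        have h3 : ((Nᶜ ∩ ball s v (2 * R)).card : ℝ) ≤ (4 * R + 1) ^ 2 := by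
          exact_mod_cast (card_le_card inter_subset_right).trans (card_ball_two s v)
        gcongr) h0 ht
  refine h1.trans ?_
  have h4 : Real.exp (-(c * r)) * t ≤ 2 * Real.exp (-(c / 2 * r)) := by
    have h5 := Real.add_one_le_exp (c / 2 * r)
    calc Real.exp (-(c * r)) * t ≤ Real.exp (-(c * r)) * (2 * Real.exp (c / 2 * r)) := by
          gcongr; linarith
      _ = 2 * Real.exp (-(c / 2 * r)) := by
          rw [mul_left_comm, ← Real.exp_add]; congr 2; ring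
  calc _ = N.card * (2 * (4 * R + 1) ^ 2 * gJ R J ^ 2 * C * (Real.exp (-(c * r)) * t)) := by ring
    _ ≤ N.card * (2 * (4 * R + 1) ^ 2 * gJ R J ^ 2 * C * (2 * Real.exp (-(c / 2 * r)))) := by
        gcongr
    _ = _ := by ring

/-- the construction with explicit errors -/
theorem ff_core (gf : GFStmt) (hq : 1 ≤ q) (hΔ : 0 < Δ) {s : Sys q R J Δ Λ} {c C : ℝ}
    (hlr : LR s c C) (hc : 0 < c) (hC : 0 ≤ C) (N : Finset Λ) {r : ℕ} (hr : R ≤ r) {δ : ℝ}
    (d1 : C * gJ R J * Real.exp (-(c * r)) ≤ δ)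
    (d2 : 2 * gJ R J * Real.exp (1 - c / (2 * Real.exp 1 / Δ) * r) ≤ δ)
    (d3 : 4 * (4 * R + 1) ^ 2 * gJ R J ^ 2 * C * Real.exp (-(c / 2 * r)) ≤ δ)
    (hδ : 36 * (N.card * δ) ≤ Δ) :
    ∃ (g : Λ → Q.Op (fun _ : Λ => Fin q)) (gf : Q.Op (fun _ : Λ => Fin q))
      (Ω' : Q.Vec (Cfg fun _ : Λ => Fin q)) (E' : ℝ),
      (∀ v, (g v).PosSemidef ∧ Supp (ball s v r) (g v) ∧ ‖g v‖ ≤ 2 * gJ R J) ∧
      gf.PosSemidef ∧ Supp (nbhd s Nᶜ r) gf ∧
      Gap (∑ v ∈ N, g v + gf) Ω' E' (Δ / 2) ∧ 0 ≤ E' ∧ E' ≤ 4 * (N.card * δ) ∧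
      Δ * ‖Ω' - s.Ω‖ ^ 2 ≤ 12 * (N.card * δ) := by
  have : Nonempty (Fin q) := ⟨⟨0, hq⟩⟩
  have hg := gJ_nonneg R (J_nonneg s)
  have hs := gap_sys s
  set T : ℝ := 2 * Real.exp 1 / Δ with hT
  have hT0 : 0 < T := by positivity
  set n' : ℕ := ⌊c * r / T⌋₊ with hn'
  have hnT : n' * T ≤ c * r := by
    rw [← le_div_iff₀ hT0]; exact Nat.floor_le (by positivity)
  have hn1 : c / T * r < n' + 1 := by
    rw [div_mul_eq_mul_div]; exact Nat.lt_floor_add_one _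
  set F := (Av (ham s) T)^[n'] with hF
  set cv : Λ → ℝ := fun v => (⟪s.Ω, ap (hv s v) s.Ω⟫_ℂ).re with hcv
  set A : Λ → Q.Op (fun _ : Λ => Fin q) := fun v => F (hv s v) - (cv v : ℂ) • 1 with hA
  have hAh : ∀ v, (A v).IsHermitian := fun v =>
    herm_sub_smul_one (Av_iter_herm hs.herm (hv_herm s v) hT0 n') _
  have hcv_le : ∀ v, ‖⟪s.Ω, ap (hv s v) s.Ω⟫_ℂ‖ ≤ gJ R J := fun v => by
    have := norm_inner_ap_le (hv s v) s.Ω s.Ω
    rw [hs.norm, mul_one, mul_one] at this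
    exact this.trans (norm_hv_le s v)
  have hAn : ∀ v, ‖A v‖ ≤ 2 * gJ R J := fun v => by
    refine (norm_sub_le _ _).trans ?_
    have h1 := (norm_Av_iter_le hs.herm hT0 n' (hv s v)).trans (norm_hv_le s v)
    have h2 : ‖(1 : Q.Op (fun _ : Λ => Fin q))‖ ≤ 1 := norm_of_unitary_le (by simp)
    have h3 : ‖(cv v : ℂ)‖ * ‖(1 : Q.Op (fun _ : Λ => Fin q))‖ ≤ gJ R J * 1 := by
      gcongr
      rw [hcv, re_inner_eq (hv_herm s v)]; exact hcv_le v
    rw [norm_smul]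
    linarith
  set Af : Q.Op (fun _ : Λ => Fin q) := ham s - ∑ v ∈ N, A v - (s.E : ℂ) • 1 with hAf
  have hAfh : Af.IsHermitian := herm_sub_smul_one
    (hs.herm.sub (isSelfAdjoint_sum N fun v _ => (hAh v).isSelfAdjoint)) _
  have hAf2 : Af = F (∑ k ∈ Nᶜ, hv s k) - ((s.E : ℂ) - ∑ v ∈ N, (cv v : ℂ)) • 1 := by
    have h1 : ∑ k ∈ Nᶜ, hv s k = ham s - ∑ v ∈ N, hv s v := by
      rw [ham_split s N, add_sub_cancel_left]
    rw [h1, hF, Av_iter_sub, Av_iter_sum, Av_iter_self _ hT0, hAf, hA]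
    simp only [sum_sub_distrib, sub_smul, Finset.sum_smul]
    abel
  obtain ⟨Ω', E', h1, h2, h3, h4⟩ := assemble N hs hΔ A (fun v => E (ball s v r) (A v))
    (E (nbhd s Nᶜ r) Af) (δ := δ) (fun v => E_isHermitian _ (hAh v)) (E_isHermitian _ hAfh)
    (fun v _ => norm_sub_E_le fun B hB hB1 => by
      rw [hA, comm_sub_smul_one]
      refine norm_br_Av_iter _ hT0 n' fun t h0 ht => ?_
      refine (hlr v R r _ B _ t (supp_hv s v) (by omega) hB disjoint_compl_right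
        (by rw [abs_of_nonneg h0]; linarith)).trans (le_trans ?_ d1)
      have := norm_hv_le s v
      calc _ ≤ C * gJ R J * 1 * Real.exp (-(c * r)) := by gcongr
        _ = _ := by ring)
    (fun v _ => by
      have h1 := (gf _ (ham s) s.Ω s.E Δ T hs hΔ hT0 (hv s v) n').2
      rw [hA, ap_sub, ap_smul, ap_one, hcv, re_inner_eq (hv_herm s v)]
      refine h1.trans (le_trans ?_ d2)
      have h2 : 2 / (T * Δ) = Real.exp (-1) := by
        rw [hT, Real.exp_neg]; field_simp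
      have h3 : ‖ap (hv s v) s.Ω - ⟪s.Ω, ap (hv s v) s.Ω⟫_ℂ • s.Ω‖ ≤ 2 * gJ R J := by
        refine (norm_sub_le _ _).trans ?_
        have h4 := norm_ap_le (hv s v) s.Ω
        rw [norm_smul, hs.norm, mul_one] at *
        linarith [norm_hv_le s v, hcv_le v]
      rw [h2, ← Real.exp_nat_mul, mul_comm (2 * gJ R J)]
      gcongr
      linarith)
    (norm_sub_E_le fun B hB hB1 => by
      change ‖Af * B - B * Af‖ ≤ _
      rw [hAf2, comm_sub_smul_one]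
      refine norm_br_Av_iter _ hT0 n' fun t h0 ht => ?_
      refine (far_br hlr hC N hr hB hB1 h0 (ht.trans hnT)).trans ?_
      gcongr) hδ
  refine ⟨fun v => fr abs (E (ball s v r) (A v)), fr abs (E (nbhd s Nᶜ r) Af), Ω', E',
    fun v => ⟨abs_posSemidef _, (supp_E _ _).fc _ (E_isHermitian _ (hAh v)), ?_⟩,
    abs_posSemidef _, (supp_E _ _).fc _ (E_isHermitian _ hAfh), h1, h2, h3, h4⟩
  exact (norm_abs_le (E_isHermitian _ (hAh v))).trans ((norm_E_le _ _).trans (hAn v))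

/-- item 1 from the filter lemma -/
theorem ff_of (gf : GFStmt) : FFStmt := by
  intro q R J Δ hq hJ hΔ
  obtain ⟨c₀, C₀, hc₀, hc₀1, hC₀, hlr⟩ := lrb_gen R hJ (3 * R)
  have hg := gJ_pos R hJ
  set T : ℝ := 2 * Real.exp 1 / Δ with hT
  have hT0 : 0 < T := by positivity
  set c₁ : ℝ := min (c₀ / 2) (c₀ / T) with hc₁
  have hc₁0 : 0 < c₁ := lt_min (by positivity) (by positivity)
  have hc₁1 : c₁ ≤ c₀ / 2 := min_le_left _ _
  have hc₁2 : c₁ ≤ c₀ / T := min_le_right _ _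
  have hC₀0 : 0 < C₀ := by linarith
  have p1 : 0 < C₀ * gJ R J := by positivity
  have p2 : 0 < 2 * gJ R J * Real.exp 1 := by positivity
  have p3 : 0 < 4 * (4 * R + 1 : ℝ) ^ 2 * gJ R J ^ 2 * C₀ := by positivity
  set C₁ : ℝ := C₀ * gJ R J + 2 * gJ R J * Real.exp 1 + 4 * (4 * R + 1) ^ 2 * gJ R J ^ 2 * C₀
    with hC₁
  have hC₁0 : 0 < C₁ := by positivity
  set κ : ℝ := min (Δ / 36) (1 / 4) with hκ
  have hκ0 : 0 < κ := lt_min (by positivity) (by positivity)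
  have hκ1 : κ ≤ Δ / 36 := min_le_left _ _
  have hκ2 : κ ≤ 1 / 4 := min_le_right _ _
  have p4 : 0 < C₁ / κ := by positivity
  have p5 : 0 < Real.exp R := Real.exp_pos _
  set C : ℝ := 1 + C₁ / κ + Real.exp R + 2 * gJ R J with hC
  refine ⟨c₁ / 2, C, by positivity, by positivity, ?_⟩
  intro Λ _ _ s N r ε hε hε1
  have hr0 : (0 : ℝ) ≤ r := Nat.cast_nonneg r
  have hN0 : (0 : ℝ) ≤ N.card := Nat.cast_nonneg _
  set x := Real.exp (-(c₁ / 2 * r)) with hx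
  have hx0 : 0 < x := Real.exp_pos _
  have hr : R ≤ r := by
    have h1 : Real.exp R * 1 * x ≤ C * (N.card + 1) * x := by
      gcongr <;> linarith
    rw [mul_one, hx, ← Real.exp_add] at h1
    have h2 := Real.exp_le_one_iff.1 (h1.trans (hε.trans hε1))
    have h3 : c₁ / 2 * r ≤ 1 * r := by gcongr; linarith
    exact_mod_cast (by linarith : (R : ℝ) ≤ r)
  have hx2 : Real.exp (-(c₁ * r)) = x ^ 2 := by
    rw [hx, ← Real.exp_nat_mul]; congr 1; push_cast; ring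
  have hε0 : 0 ≤ ε := le_trans (by positivity) hε
  have key : N.card * (C₁ * x ^ 2) ≤ κ * ε ^ 2 := by
    have h1 : (C * (N.card + 1) * x) ^ 2 ≤ ε ^ 2 := by gcongr
    have h2 : C₁ / κ ≤ C ^ 2 :=
      (by linarith : C₁ / κ ≤ C).trans (le_self_pow₀ (by linarith) two_ne_zero)
    have h3 : (N.card : ℝ) ≤ (N.card + 1) ^ 2 :=
      (by linarith : (N.card : ℝ) ≤ N.card + 1).trans (le_self_pow₀ (by linarith) two_ne_zero)
    calc N.card * (C₁ * x ^ 2) = κ * (C₁ / κ * N.card * x ^ 2) := by field_simp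
      _ ≤ κ * (C ^ 2 * (N.card + 1) ^ 2 * x ^ 2) := by gcongr
      _ = κ * (C * (N.card + 1) * x) ^ 2 := by ring
      _ ≤ _ := by gcongr
  have hε2 : ε ^ 2 ≤ 1 := pow_le_one₀ hε0 hε1
  have key1 : κ * ε ^ 2 ≤ Δ / 36 * ε ^ 2 := by gcongr
  have key2 : κ * ε ^ 2 ≤ 1 / 4 * ε ^ 2 := by gcongr
  have key3 : Δ * ε ^ 2 ≤ Δ * 1 := by gcongr
  have key4 : 0 ≤ Δ * ε ^ 2 := by positivity
  obtain ⟨g, gf', Ω', E', h1, h2, h3, h4, h5, h6, h7⟩ := ff_core gf hq hΔ (s := s) (hlr s) hc₀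
    hC₀0.le N hr (δ := C₁ * x ^ 2) (by
      rw [← hx2]
      gcongr
      · linarith
      · linarith) (by
      rw [← hx2, sub_eq_add_neg, Real.exp_add, ← mul_assoc]
      gcongr
      linarith) (by
      rw [← hx2]
      gcongr
      linarith) (by linarith)
  refine ⟨g, gf', Ω', E', fun v => ⟨(h1 v).1, (h1 v).2.1, (h1 v).2.2.trans (by linarith)⟩, h2, h3,
    h4, h5, by linarith, ?_⟩
  have h8 : Δ * ‖Ω' - s.Ω‖ ^ 2 ≤ Δ * ε ^ 2 := by linarith
  exact (pow_le_pow_iff_left₀ (norm_nonneg _) hε0 two_ne_zero).1 (le_of_mul_le_mul_left h8 hΔ)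

end Crest.Agent.N336.A.FF
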