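import Crest.Agent.N336.A.Defs

/-!
# Row 336: the time average `Av`, the filter lemma and the locality lemma (helper48)
-/

set_option autoImplicit false
set_option linter.unusedSectionVars false

open Matrix Finset
open scoped ComplexOrder MatrixOrder Matrix.Norms.L2Operator InnerProductSpace

namespace Crest.Agent.N336.A

open Crest.Agent.N336.Q
open Crest.Agent.R150.LR375

variable {n m : Type} [Fintype n] [DecidableEq n] [Fintype m] [DecidableEq m]

/-! ### the evolution -/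

lemma continuous_U (H : Matrix n n ℂ) : Continuous (U H) :=
  continuous_iff_continuousAt.2 fun s => (U_deriv H s).continuousAt

lemma continuous_tau (H X : Matrix n n ℂ) : Continuous fun s => tau H s X :=
  ((continuous_U H).mul continuous_const).mul ((continuous_U H).comp continuous_neg)

/-- the evolution as a continuous linear map -/
noncomputable def tauL (H : Matrix n n ℂ) (s : ℝ) : Matrix n n ℂ →L[ℂ] Matrix n n ℂ :=
  ContinuousLinearMap.mulLeftRight ℂ _ (U H s) (U H (-s))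

lemma tauL_apply (H : Matrix n n ℂ) (s : ℝ) (X : Matrix n n ℂ) : tauL H s X = tau H s X := rfl


lemma tau_sub (H : Matrix n n ℂ) (s : ℝ) (X Y : Matrix n n ℂ) :
    tau H s (X - Y) = tau H s X - tau H s Y := map_sub (tauL H s) X Y

lemma tau_smul (H : Matrix n n ℂ) (s : ℝ) (c : ℂ) (X : Matrix n n ℂ) :
    tau H s (c • X) = c • tau H s X := map_smul (tauL H s) c X

lemma tau_of_comm {H X : Matrix n n ℂ} (h : H * X = X * H) (s : ℝ) : tau H s X = X := by
  rw [tau, U_comm h, mul_assoc, U_mul_neg, mul_one]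

lemma tau_one (H : Matrix n n ℂ) (s : ℝ) : tau H s 1 = 1 := tau_of_comm (by simp) s

lemma tau_tau (H : Matrix n n ℂ) (s t : ℝ) (X : Matrix n n ℂ) :
    tau H s (tau H t X) = tau H (s + t) X := by
  simp only [tau, neg_add_rev, U_add, mul_assoc]

lemma tau_br (H : Matrix n n ℂ) (s : ℝ) (X Y : Matrix n n ℂ) :
    tau H s (br X Y) = br (tau H s X) (tau H s Y) := by
  simp only [br, tau_sub, tau_mul]

lemma tau_conjTranspose {H : Matrix n n ℂ} (hH : H.IsHermitian) (s : ℝ) (X : Matrix n n ℂ) :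
    (tau H s X)ᴴ = tau H s Xᴴ := by
  have h1 : ∀ s, (U H s)ᴴ = U H (-s) := fun s => U_star hH s
  simp only [tau, conjTranspose_mul, h1, neg_neg, mul_assoc]

lemma hasDerivAt_tau (H X : Matrix n n ℂ) (s : ℝ) :
    HasDerivAt (fun u => tau H u X) (Complex.I • br H (tau H s X)) s := by
  refine (((U_deriv H s).mul_const X).mul (U_deriv_neg H s)).congr_deriv ?_
  simp only [br, tau, mul_smul_comm, smul_mul_assoc, U_comm (H := H) rfl s, smul_sub, mul_neg,
    mul_assoc, sub_eq_add_neg, smul_add, smul_neg]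

lemma map_U (φ : Matrix n n ℂ →ₐ[ℂ] Matrix m m ℂ) (H : Matrix n n ℂ) (s : ℝ) :
    φ (U H s) = U (φ H) s := by
  have : NormedAlgebra ℚ (Matrix n n ℂ) := NormedAlgebra.restrictScalars ℚ ℂ _
  have : NormedAlgebra ℚ (Matrix m m ℂ) := NormedAlgebra.restrictScalars ℚ ℂ _
  rw [U, U, NormedSpace.map_exp φ φ.toLinearMap.continuous_of_finiteDimensional,
    ← Complex.coe_smul, ← Complex.coe_smul, map_smul, map_smul]

lemma map_tau (φ : Matrix n n ℂ →ₐ[ℂ] Matrix m m ℂ) (H : Matrix n n ℂ) (s : ℝ) (X : Matrix n n ℂ) :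
    φ (tau H s X) = tau (φ H) s (φ X) := by
  simp only [tau, map_mul, map_U]

/-! ### the time average -/

section clm

variable {F : Type*} [NormedAddCommGroup F] [NormedSpace ℂ F] [CompleteSpace F]

lemma clm_Av (Φ : Matrix n n ℂ →L[ℂ] F) (H : Matrix n n ℂ) (T : ℝ) (X : Matrix n n ℂ) :
    Φ (Av H T X) = ((T⁻¹ : ℝ) : ℂ) • ∫ s in (0 : ℝ)..T, Φ (tau H s X) := by
  rw [Av, map_smul, Φ.intervalIntegral_comp_comm ((continuous_tau H X).intervalIntegrable _ _)]

lemma norm_Av_sub_Av {Φ : Matrix n n ℂ →L[ℂ] F} {Ψ : Matrix m m ℂ →L[ℂ] F} {H X : Matrix n n ℂ}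
    {H' Y : Matrix m m ℂ} {T k : ℝ} (hT : 0 < T)
    (h : ∀ s, 0 ≤ s → s ≤ T → ‖Φ (tau H s X) - Ψ (tau H' s Y)‖ ≤ k) :
    ‖Φ (Av H T X) - Ψ (Av H' T Y)‖ ≤ k := by
  have h1 : Continuous fun s => Φ (tau H s X) := Φ.continuous.comp (continuous_tau H X)
  have h2 : Continuous fun s => Ψ (tau H' s Y) := Ψ.continuous.comp (continuous_tau H' Y)
  rw [clm_Av, clm_Av, ← smul_sub, ← intervalIntegral.integral_sub
    (h1.intervalIntegrable _ _) (h2.intervalIntegrable _ _), norm_smul,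
    Complex.norm_real, Real.norm_of_nonneg (inv_nonneg.2 hT.le), inv_mul_le_iff₀ hT]
  have := intervalIntegral.norm_integral_le_of_norm_le_const (a := 0) (b := T) (C := k)
    (f := fun s => Φ (tau H s X) - Ψ (tau H' s Y)) fun s hs => by
      rw [Set.uIoc_of_le hT.le] at hs
      exact h s hs.1.le hs.2
  rwa [sub_zero, abs_of_pos hT, mul_comm] at this

lemma norm_iter_sub_iter {H X : Matrix n n ℂ} {H' Y : Matrix m m ℂ} {T k : ℝ} (hT : 0 < T) (N : ℕ) :
    ∀ (Φ : Matrix n n ℂ →L[ℂ] F) (Ψ : Matrix m m ℂ →L[ℂ] F),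
      (∀ s, 0 ≤ s → s ≤ N * T → ‖Φ (tau H s X) - Ψ (tau H' s Y)‖ ≤ k) →
      ‖Φ ((Av H T)^[N] X) - Ψ ((Av H' T)^[N] Y)‖ ≤ k := by
  induction N with
  | zero =>
    intro Φ Ψ h
    simpa [tau_zero] using h 0 le_rfl (by simp)
  | succ N ih =>
    intro Φ Ψ h
    rw [Function.iterate_succ_apply', Function.iterate_succ_apply']
    refine norm_Av_sub_Av hT fun s hs0 hs => ih (Φ.comp (tauL H s)) (Ψ.comp (tauL H' s)) ?_
    intro u hu0 hu
    simp only [ContinuousLinearMap.comp_apply, tauL_apply, tau_tau]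
    exact h _ (by positivity) (by push_cast; linarith)


end clm

















lemma Av_conjTranspose {H : Matrix n n ℂ} (hH : H.IsHermitian) (T : ℝ) (X : Matrix n n ℂ) :
    (Av H T X)ᴴ = Av H T Xᴴ := by
  have h := (starL' ℝ (A := Matrix n n ℂ)).toContinuousLinearMap.intervalIntegral_comp_comm
    (μ := MeasureTheory.volume) ((continuous_tau H X).intervalIntegrable 0 T)
  simp only [Av, conjTranspose_smul, ← tau_conjTranspose hH]
  congr 1
  · simp
  · exact h.symm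

lemma Av_isHermitian {H X : Matrix n n ℂ} (hH : H.IsHermitian) (T : ℝ) (hX : X.IsHermitian) :
    (Av H T X).IsHermitian := by
  unfold Matrix.IsHermitian; rw [Av_conjTranspose hH, hX.eq]

lemma Av_iter_isHermitian {H X : Matrix n n ℂ} (hH : H.IsHermitian) (T : ℝ) (hX : X.IsHermitian)
    (N : ℕ) : ((Av H T)^[N] X).IsHermitian := by
  induction N with
  | zero => exact hX
  | succ N ih => rw [Function.iterate_succ_apply']; exact Av_isHermitian hH T ih



lemma map_Av (φ : Matrix n n ℂ →ₐ[ℂ] Matrix m m ℂ) (H : Matrix n n ℂ) (T : ℝ) (X : Matrix n n ℂ) :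
    φ (Av H T X) = Av (φ H) T (φ X) := by
  have h := clm_Av (LinearMap.toContinuousLinearMap φ.toLinearMap) H T X
  simp only [LinearMap.coe_toContinuousLinearMap', AlgHom.toLinearMap_apply, map_tau] at h
  exact h

lemma map_Av_iter (φ : Matrix n n ℂ →ₐ[ℂ] Matrix m m ℂ) (H : Matrix n n ℂ) (T : ℝ) (N : ℕ)
    (X : Matrix n n ℂ) : φ ((Av H T)^[N] X) = (Av (φ H) T)^[N] (φ X) := by
  induction N with
  | zero => rfl
  | succ N ih => rw [Function.iterate_succ_apply', Function.iterate_succ_apply', map_Av, ih]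


lemma br_Av (H : Matrix n n ℂ) (T : ℝ) (X : Matrix n n ℂ) :
    Complex.I • br H (Av H T X) = ((T⁻¹ : ℝ) : ℂ) • (tau H T X - X) := by
  have h := clm_Av (Complex.I • (ContinuousLinearMap.mul ℂ _ H -
    (ContinuousLinearMap.mul ℂ _).flip H)) H T X
  have h2 := intervalIntegral.integral_eq_sub_of_hasDerivAt (a := 0) (b := T)
    (fun s _ => hasDerivAt_tau H X s) (Continuous.intervalIntegrable (by
      have := continuous_tau H X
      unfold br; fun_prop) _ _)
  rw [tau_zero] at h2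
  rw [← h2]
  exact h

/-! ### the filter lemma -/

section gap

variable {H : Matrix n n ℂ} {Ω : Q.Vec n} {E Δ : ℝ}

lemma Gap.inner_tau (h : Gap H Ω E Δ) (s : ℝ) (X : Matrix n n ℂ) :
    ⟪Ω, ap (tau H s X) Ω⟫_ℂ = ⟪Ω, ap X Ω⟫_ℂ := by
  have h1 : H * pj Ω = pj Ω * H := by
    rw [mul_kb, kb_mul, h.herm.eq, h.eig, kb_smul_left, kb_smul_right]; simp
  rw [← trace_mul_kb, ← trace_mul_kb, tau, mul_assoc, U_comm h1, ← mul_assoc, trace_mul_cycle,
    ← mul_assoc, U_neg_mul, one_mul]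

lemma Gap.norm_tau (h : Gap H Ω E Δ) (s : ℝ) (X : Matrix n n ℂ) :
    ‖ap (tau H s X) Ω‖ = ‖ap X Ω‖ :=
  (pow_left_inj₀ (norm_nonneg _) (norm_nonneg _) two_ne_zero).1 (by
    rw [norm_ap_sq, norm_ap_sq, tau_conjTranspose h.herm, ← tau_mul, h.inner_tau])

lemma Gap.inner_Av (h : Gap H Ω E Δ) {T : ℝ} (hT : 0 < T) (X : Matrix n n ℂ) :
    ⟪Ω, ap (Av H T X) Ω⟫_ℂ = ⟪Ω, ap X Ω⟫_ℂ := by
  let Φ : Matrix n n ℂ →ₗ[ℂ] ℂ :=
    { toFun := fun Y => ⟪Ω, ap Y Ω⟫_ℂ
      map_add' := fun Y Z => by rw [ap_add, inner_add_right]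
      map_smul' := fun c Y => by rw [ap_smul, inner_smul_right]; rfl }
  have h1 := clm_Av (LinearMap.toContinuousLinearMap Φ) H T X
  simp only [LinearMap.coe_toContinuousLinearMap', Φ, LinearMap.coe_mk, AddHom.coe_mk,
    h.inner_tau, intervalIntegral.integral_const, sub_zero] at h1
  rw [h1, Complex.coe_smul, smul_smul, inv_mul_cancel₀ hT.ne', one_smul]

lemma Gap.step (h : Gap H Ω E Δ) (hΔ : 0 < Δ) {T : ℝ} (hT : 0 < T) (X : Matrix n n ℂ) :
    ‖ap (Av H T X) Ω - ⟪Ω, ap X Ω⟫_ℂ • Ω‖ ≤ 2 / (T * Δ) * ‖ap X Ω - ⟪Ω, ap X Ω⟫_ℂ • Ω‖ := by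
  set c := ⟪Ω, ap X Ω⟫_ℂ with hc
  set z := ap (Av H T X) Ω - c • Ω with hz
  have hΩ : ⟪Ω, Ω⟫_ℂ = 1 := by rw [inner_self_eq_norm_sq_to_K, h.norm]; simp
  have h0 : ⟪Ω, z⟫_ℂ = 0 := by
    rw [hz, inner_sub_right, h.inner_Av hT, inner_smul_right, hΩ, mul_one, sub_self]
  have h1 : ap H z - (E : ℂ) • z = ap (br H (Av H T X)) Ω := by
    rw [br, ap_sub, ap_mul, ap_mul, h.eig, hz, map_sub, map_smul, map_smul, h.eig, smul_sub,
      smul_comm c]
    abel
  have h2 : ‖ap H z - (E : ℂ) • z‖ ≤ T⁻¹ * (2 * ‖ap X Ω - c • Ω‖) := by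
    have e1 : ‖ap (br H (Av H T X)) Ω‖ = ‖ap (Complex.I • br H (Av H T X)) Ω‖ := by
      rw [ap_smul, norm_smul, Complex.norm_I, one_mul]
    have e2 : ap (tau H T X - X) Ω = ap (tau H T (X - c • 1)) Ω - ap (X - c • 1) Ω := by
      rw [tau_sub, tau_smul, tau_one, ← ap_sub, sub_sub_sub_cancel_right]
    have e3 : ap (X - c • 1) Ω = ap X Ω - c • Ω := by rw [ap_sub, ap_smul, ap_one]
    rw [h1, e1, br_Av, ap_smul, norm_smul, Complex.norm_real,
      Real.norm_of_nonneg (inv_nonneg.2 hT.le), e2]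
    refine mul_le_mul_of_nonneg_left ((norm_sub_le _ _).trans ?_) (inv_nonneg.2 hT.le)
    rw [h.norm_tau, e3, two_mul]
  have h3 := h.gap z
  have h4 : (⟪z, ap H z⟫_ℂ).re - E * ‖z‖ ^ 2 = (⟪z, ap H z - (E : ℂ) • z⟫_ℂ).re := by
    rw [inner_sub_right, inner_smul_right, inner_self_eq_norm_sq_to_K, Complex.sub_re,
      Complex.re_ofReal_mul]
    norm_cast
  have h5 : (⟪z, ap H z - (E : ℂ) • z⟫_ℂ).re ≤ ‖z‖ * ‖ap H z - (E : ℂ) • z‖ :=
    (Complex.re_le_norm _).trans (norm_inner_le_norm _ _)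
  rw [h0, norm_zero, h4] at h3
  rcases (norm_nonneg z).eq_or_lt with h6 | h6
  · rw [← h6]; positivity
  have h7 : Δ * ‖z‖ ≤ T⁻¹ * (2 * ‖ap X Ω - c • Ω‖) :=
    le_trans (le_of_mul_le_mul_left (by nlinarith) h6) h2
  calc ‖z‖ = Δ⁻¹ * (Δ * ‖z‖) := by field_simp
    _ ≤ Δ⁻¹ * (T⁻¹ * (2 * ‖ap X Ω - c • Ω‖)) := by gcongr
    _ = _ := by field_simp

end gap

theorem gf : GFStmt := by
  intro n _ _ H Ω E Δ T h hΔ hT X N
  induction N with
  | zero => simp
  | succ N ih =>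
    rw [Function.iterate_succ_apply', h.inner_Av hT]
    refine ⟨ih.1, ?_⟩
    have h1 := h.step hΔ hT ((Av H T)^[N] X)
    rw [ih.1] at h1
    refine h1.trans ?_
    rw [pow_succ', mul_assoc]
    exact mul_le_mul_of_nonneg_left ih.2 (by positivity)

/-! ### the locality lemma -/

lemma pow_div_factorial_le_exp_neg {x : ℝ} (hx : 0 ≤ x) {k : ℕ} (h : Real.exp 2 * x ≤ k) :
    x ^ k / k.factorial ≤ Real.exp (-k) := by
  have h1 : x ≤ Real.exp (-2) * k := by
    have : x = Real.exp (-2) * (Real.exp 2 * x) := by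
      rw [← mul_assoc, ← Real.exp_add]; simp
    rw [this]; gcongr
  have h2 : ((k : ℝ)) ^ k / k.factorial ≤ Real.exp k :=
    Real.pow_div_factorial_le_exp (k : ℝ) (Nat.cast_nonneg k) k
  calc x ^ k / k.factorial ≤ (Real.exp (-2) * k) ^ k / k.factorial := by gcongr
    _ = Real.exp (-2) ^ k * ((k : ℝ) ^ k / k.factorial) := by rw [mul_pow]; ring
    _ ≤ Real.exp (-2) ^ k * Real.exp k := by gcongr
    _ = Real.exp (-k) := by
        rw [← Real.exp_nat_mul, ← Real.exp_add]; congr 1; ring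

/-- Duhamel's formula for two evolutions -/
lemma norm_tau_sub_tau {H H₀ O : Matrix n n ℂ} (hH : H.IsHermitian) {t k : ℝ} (ht : 0 ≤ t)
    (h : ∀ r, 0 ≤ r → r ≤ t → ‖br (H - H₀) (tau H₀ r O)‖ ≤ k) :
    ‖tau H t O - tau H₀ t O‖ ≤ k * t := by
  have hd : ∀ u, HasDerivAt (fun u => tau H u (tau H₀ (t - u) O))
      (tau H u (Complex.I • br (H - H₀) (tau H₀ (t - u) O))) u := fun u => by
    have h1 := (hasDerivAt_tau H₀ O (t - u)).scomp u ((hasDerivAt_id u).const_sub t)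
    refine (((U_deriv H u).mul h1).mul (U_deriv_neg H u)).congr_deriv ?_
    simp only [Function.comp_apply, id, Pi.mul_apply]
    generalize tau H₀ (t - u) O = Y
    simp only [br, tau, mul_smul_comm, smul_mul_assoc, U_comm (H := H) rfl (-u), smul_sub, mul_neg,
      mul_assoc, neg_smul, one_smul, mul_sub, sub_mul, add_mul, neg_mul]
    abel
  have h2 := norm_image_sub_le_of_norm_deriv_le_segment' (a := 0) (b := t) (C := k)
    (fun u _ => (hd u).hasDerivWithinAt) (fun u hu => by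
      rw [norm_tau hH, norm_smul, Complex.norm_I, one_mul]
      exact h _ (by linarith [hu.2]) (by linarith [hu.1])) t ⟨ht, le_rfl⟩
  simpa only [sub_self, sub_zero, tau_zero] using h2

theorem loc : LocStmt := by
  intro n _ _ K _ _ h g nb m dd O T₀ V w N T hh hg hg0 hm1 hm hc hd hO hout hV hT hw
  have hH : ∀ S : Finset K, (∑ j ∈ S, h j).IsHermitian := fun S =>
    isSelfAdjoint_sum S fun j _ => hh j
  set H₀ := ∑ j ∈ T₀, h j with hH₀
  set τ : ℝ := N * T with hτ
  have hτ0 : 0 ≤ τ := by positivity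
  set b : ℝ := 4 * m * g * g * ‖O‖ * ((2 * m * g) ^ w * τ ^ (w + 1) / (w + 1).factorial) with hb
  have hb0 : 0 ≤ b := by positivity
  have hterm : ∀ j, j ∉ T₀ → ∀ r, 0 ≤ r → r ≤ τ →
      ‖br (h j) (tau H₀ r O)‖ ≤ if j ∈ V then b else 0 := by
    intro j hj r hr0 hr
    have e1 : ‖br (h j) (tau H₀ r O)‖ = ‖br (tau H₀ (-r) (h j)) O‖ := by
      rw [← norm_tau (hH T₀) (-r), tau_br, tau_tau, neg_add_cancel, tau_zero]
    rw [e1]
    split_ifs with hjV
    · have e2 : H₀ = ∑ k, if k ∈ T₀ then h k else 0 := by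
        rw [Finset.sum_ite_mem, Finset.univ_inter]
      have h1 := lr_gen (h := fun k => if k ∈ T₀ then h k else 0) (g := g) (nb := nb) (m := m)
        (d := dd) (B := O) (X := h j) (S := nb j)
        (fun k => by split_ifs; exacts [hh k, .zero _])
        (fun k => by split_ifs; exacts [hg k, by simpa using hg0.le]) hm
        (fun k l hl => by split_ifs <;> simp [hc k l hl]) hd
        (fun k hk => by split_ifs <;> simp [hO k hk])
        (fun k hk => by split_ifs <;> simp [hc j k hk])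
        (hO j (by have := hV j hjV; omega)) w
        (fun k hk => by have := hV j hjV; have := hd j k hk; omega) (-r)
      rw [← e2, abs_neg, abs_of_nonneg hr0] at h1
      refine h1.trans ?_
      have h3 : ((nb j).card : ℝ) ≤ m := by exact_mod_cast hm j
      have h4 := hg j
      rw [hb]
      gcongr
    · obtain ⟨h1, h2⟩ := hout j hj hjV
      have h3 : H₀ * h j = h j * H₀ := by
        rw [hH₀, Finset.sum_mul, Finset.mul_sum]
        exact Finset.sum_congr rfl fun k hk => (h2 k hk).symm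
      rw [tau_of_comm h3, br_eq_zero h1, norm_zero]
  have hbr : ∀ r, 0 ≤ r → r ≤ τ → ‖br (∑ j, h j - H₀) (tau H₀ r O)‖ ≤ V.card * b := by
    intro r hr0 hr
    rw [← Finset.sum_compl_add_sum T₀, add_sub_cancel_right, br_sum_left]
    refine (norm_sum_le _ _).trans ?_
    refine (Finset.sum_le_sum fun j hj => hterm j (Finset.mem_compl.1 hj) r hr0 hr).trans ?_
    rw [Finset.sum_ite_mem, Finset.sum_const, nsmul_eq_mul]
    gcongr
    exact Finset.inter_subset_right
  have hx0 : 0 ≤ 2 * m * g * τ := by positivity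
  have hbτ : b * τ ≤ ‖O‖ * ((w + 1 : ℝ) ^ 2 * Real.exp (-w)) := by
    have h1 := pow_div_factorial_le_exp_neg hx0 hw
    have h2 : 2 * m * g * τ ≤ w + 1 := by
      have := Real.one_le_exp (show (0 : ℝ) ≤ 2 by norm_num)
      nlinarith
    have h3 : (1 : ℝ) ≤ m := by exact_mod_cast hm1
    have h4 : (w.factorial : ℝ) ≤ (w + 1).factorial := by
      exact_mod_cast Nat.factorial_le (Nat.le_succ w)
    calc b * τ = ‖O‖ * ((2 * m * g * τ) ^ 2 / m * ((2 * m * g * τ) ^ w / (w + 1).factorial)) := by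
          rw [hb, mul_pow _ τ w]; field_simp; ring
      _ ≤ ‖O‖ * ((w + 1) ^ 2 / 1 * ((2 * m * g * τ) ^ w / w.factorial)) := by gcongr
      _ ≤ _ := by rw [div_one]; gcongr
  refine norm_iter_sub_iter (F := Matrix n n ℂ) hT N (ContinuousLinearMap.id ℂ (Matrix n n ℂ))
    (ContinuousLinearMap.id ℂ (Matrix n n ℂ)) fun s hs0 hs => ?_
  refine (norm_tau_sub_tau (hH _) hs0 fun r hr0 hr => hbr r hr0 (hr.trans hs)).trans ?_
  calc V.card * b * s ≤ V.card * (b * τ) := by rw [mul_assoc]; gcongr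
    _ ≤ _ := by
      rw [mul_assoc (V.card : ℝ) ‖O‖]
      exact mul_le_mul_of_nonneg_left hbτ (Nat.cast_nonneg _)

end Crest.Agent.N336.A
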